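import Vale.Agent.P013.H139.Cov
import Vale.Agent.P013.Bdl.B6

open Vale.Agent.P013.H499 in
/-- Jacobsthal's conjecture; residue classes with pairwise coprime moduli; rough integers. -/
theorem Vale.Agent.Results.P013.CoprimeModuli.result :
    -- (1) the conjecture, with a saving of any power of the logarithm
    (∃ C : ℝ, 0 < C ∧ ∀ k : ℕ, 1 ≤ k → (h k : ℝ) ≤ C * (k : ℝ) ^ 2) ∧
    (∀ B : ℝ, 0 < B → ∃ C : ℝ, 0 < C ∧ ∀ k : ℕ, 2 ≤ k →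
      (h k : ℝ) ≤ C * (k : ℝ) ^ 2 / (Real.log k) ^ B) ∧
    (∀ k n : ℕ, 1 ≤ n → n.primeFactors.card ≤ k → jac n ≤ h k) ∧
    (∀ n : ℕ, 1 ≤ n →
      0 < jac n ∧ ∀ x : ℤ, ∃ t : ℤ, x < t ∧ t ≤ x + jac n ∧ Int.gcd t n = 1) ∧
    -- (2) one residue class for each of at most `k` pairwise coprime moduli: count, and a short gap
    (∀ B : ℝ, 0 < B → ∃ C c D : ℝ, 0 < C ∧ 0 < c ∧ 0 < D ∧
      ∀ k : ℕ, 2 ≤ k → ∀ M : Finset ℕ, M.card ≤ k → (∀ m ∈ M, 2 ≤ m) →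
        (M : Set ℕ).Pairwise Nat.Coprime → ∀ (a : ℕ → ℤ) (x : ℤ),
          (∀ y : ℕ, C * (k : ℝ) ^ 2 / (Real.log k) ^ B ≤ y →
            c * y / (Real.log y) ^ 2 ≤
              {t : ℤ | x < t ∧ t ≤ x + y ∧ ∀ m ∈ M, ¬ (m : ℤ) ∣ t - a m}.ncard) ∧
          ∃ t t' : ℤ, x < t ∧ t < t' ∧ (t' : ℝ) ≤ x + C * (k : ℝ) ^ 2 / (Real.log k) ^ B ∧
            ((t' - t : ℤ) : ℝ) ≤ D * (Real.log k) ^ 2 ∧
            (∀ m ∈ M, ¬ (m : ℤ) ∣ t - a m) ∧ ∀ m ∈ M, ¬ (m : ℤ) ∣ t' - a m) ∧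
    -- (3) integers without prime factors up to `z`: count, and a short gap
    (∀ B : ℝ, 0 < B → ∃ C c D : ℝ, 0 < C ∧ 0 < c ∧ 0 < D ∧
      ∀ z : ℕ, 2 ≤ z → ∀ x : ℤ,
        (∀ y : ℕ, C * (z : ℝ) ^ 2 / (Real.log z) ^ B ≤ y →
          c * y / (Real.log y) ^ 2 ≤
            {t : ℤ | x < t ∧ t ≤ x + y ∧ ∀ p : ℕ, p.Prime → (p : ℤ) ∣ t → z < p}.ncard) ∧
        ∃ t t' : ℤ, x < t ∧ t < t' ∧ (t' : ℝ) ≤ x + C * (z : ℝ) ^ 2 / (Real.log z) ^ B ∧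
          ((t' - t : ℤ) : ℝ) ≤ D * (Real.log z) ^ 2 ∧
          (∀ p : ℕ, p.Prime → (p : ℤ) ∣ t → z < p) ∧ ∀ p : ℕ, p.Prime → (p : ℤ) ∣ t' → z < p) := by
  refine ⟨(Vale.Agent.P013.J.jacobsthal_conj Vale.Agent.P013.J.tstar_full).1,
    (Vale.Agent.P013.J.jacobsthal_conj Vale.Agent.P013.J.tstar_full).2.1,
    (Vale.Agent.P013.J.jacobsthal_conj Vale.Agent.P013.J.tstar_full).2.2.2, ?_,
    Vale.Agent.P013.H139.gaps_coprime Vale.Agent.P013.J.tstar_full,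
    Vale.Agent.P013.H139.gaps_rough Vale.Agent.P013.J.tstar_full⟩
  intro n hn
  have hne : {m : ℕ | 0 < m ∧ ∀ x : ℤ, ∃ t : ℤ, x < t ∧ t ≤ x + m ∧ Int.gcd t n = 1}.Nonempty := by
    refine ⟨n, hn, fun x => ?_⟩
    have hn' : (0 : ℤ) < n := by exact_mod_cast hn
    refine ⟨n * (x / n) + 1 + (if n * (x / n) + 1 ≤ x then (n : ℤ) else 0), ?_, ?_, ?_⟩
    · have h1 := Int.lt_mul_ediv_self_add (x := x) hn'
      split_ifs with h2 <;> omega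
    · have h1 := Int.mul_ediv_self_le (x := x) hn'.ne'
      split_ifs with h2 <;> omega
    · have h3 : ∃ c : ℤ, (n : ℤ) * (x / n) + 1 +
          (if (n : ℤ) * (x / n) + 1 ≤ x then (n : ℤ) else 0) = 1 + (n : ℤ) * c := by
        split_ifs with h2
        · exact ⟨x / n + 1, by ring⟩
        · exact ⟨x / n, by ring⟩
      obtain ⟨c, hc⟩ := h3
      rw [hc, Int.gcd_comm]
      exact Int.isCoprime_iff_gcd_eq_one.1 ⟨-c, 1, by ring⟩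
  exact Nat.sInf_mem hne
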