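import Vale.Agent.P013.H499.Main
import Vale.Agent.P013.Bdl.B6

open Vale.Agent.P013.H499 in
/-- Jacobsthal's conjecture, and a sieve with arbitrary residue classes beyond the square root. -/
theorem Vale.Agent.Results.P013.SieveBeyondSqrt.result :
    -- the conjecture, with a saving of any power of the logarithm
    (∃ C : ℝ, 0 < C ∧ ∀ k : ℕ, 1 ≤ k → (h k : ℝ) ≤ C * (k : ℝ) ^ 2) ∧
    (∀ B : ℝ, 0 < B → ∃ C : ℝ, 0 < C ∧ ∀ k : ℕ, 2 ≤ k →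
      (h k : ℝ) ≤ C * (k : ℝ) ^ 2 / (Real.log k) ^ B) ∧
    (∀ k n : ℕ, 1 ≤ n → n.primeFactors.card ≤ k → jac n ≤ h k) ∧
    -- any set of at most `k` primes, any residue classes, any interval of length `y`
    (∀ B : ℝ, 0 < B → ∃ C c : ℝ, 0 < C ∧ 0 < c ∧
      ∀ k : ℕ, 2 ≤ k → ∀ P : Finset ℕ, (∀ p ∈ P, p.Prime) → P.card ≤ k →
        ∀ (a : ℕ → ℤ) (x : ℤ) (y : ℕ), C * (k : ℝ) ^ 2 / (Real.log k) ^ B ≤ y →
          c * y / (Real.log y) ^ 2 ≤ unsieved P a x y) ∧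
    -- all the primes below `√y (log y)^A` and as many larger ones
    (∀ A : ℝ, 0 < A → ∃ c : ℝ, 0 < c ∧ ∃ y₀ : ℕ, ∀ y : ℕ, y₀ ≤ y →
      ∀ P : Finset ℕ, (∀ p ∈ P, p.Prime) →
        ((P.filter fun p : ℕ => √y * (Real.log y) ^ A ≤ (p : ℝ)).card : ℝ) ≤ √y * (Real.log y) ^ A →
        ∀ (a : ℕ → ℤ) (x : ℤ), c * y / (Real.log y) ^ 2 ≤ unsieved P a x y) ∧
    -- arithmetic progressions
    (∀ B : ℝ, 0 < B → ∃ C c : ℝ, 0 < C ∧ 0 < c ∧
      ∀ k : ℕ, 2 ≤ k → ∀ n : ℕ, 1 ≤ n → n.primeFactors.card ≤ k →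
        ∀ a q : ℤ, (∀ p : ℕ, p.Prime → p ∣ n → (p : ℤ) ∣ q → ¬ (p : ℤ) ∣ a) →
          ∀ (x : ℤ) (y : ℕ), C * (k : ℝ) ^ 2 / (Real.log k) ^ B ≤ y →
            c * y / (Real.log y) ^ 2 ≤ coprimeTerms n a q x y) ∧
    -- the function `jac` is Jacobsthal's function
    (∀ n : ℕ, 1 ≤ n →
      0 < jac n ∧ ∀ x : ℤ, ∃ t : ℤ, x < t ∧ t ≤ x + jac n ∧ Int.gcd t n = 1) := by
  refine ⟨(Vale.Agent.P013.J.jacobsthal_conj Vale.Agent.P013.J.tstar_full).1,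
    (Vale.Agent.P013.J.jacobsthal_conj Vale.Agent.P013.J.tstar_full).2.1,
    (Vale.Agent.P013.J.jacobsthal_conj Vale.Agent.P013.J.tstar_full).2.2.2,
    kform Vale.Agent.P013.J.tstar_full, sieve Vale.Agent.P013.J.tstar_full, ?_, ?_⟩
  · intro B hB
    obtain ⟨C, c, hC, hc, hh⟩ := kform Vale.Agent.P013.J.tstar_full B hB
    refine ⟨C, c, hC, hc, fun k hk n hn hnk a q hq x y hy => ?_⟩
    obtain ⟨b, hb⟩ := progression n hn a q hq
    rw [← hb x y]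
    exact hh k hk _ (fun p hp => Nat.prime_of_mem_primeFactors (Finset.mem_filter.1 hp).1)
      ((Finset.card_filter_le _ _).trans hnk) b x y hy
  · intro n hn
    have hne : {m : ℕ | 0 < m ∧ ∀ x : ℤ, ∃ t : ℤ, x < t ∧ t ≤ x + m ∧ Int.gcd t n = 1}.Nonempty := by
      refine ⟨n, hn, fun x => ?_⟩
      have hn' : (0 : ℤ) < n := by exact_mod_cast hn
      refine ⟨n * (x / n) + 1 + (if n * (x / n) + 1 ≤ x then (n : ℤ) else 0), ?_, ?_, ?_⟩
      · have h1 := Int.lt_mul_ediv_self_add (x := x) hn'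
        split_ifs with h2 <;> omega
      · have h1 := Int.mul_ediv_self_le (x := x) hn'.ne'
        split_ifs with h2 <;> omega
      · have h3 : ∃ c : ℤ, (n : ℤ) * (x / n) + 1 +
            (if (n : ℤ) * (x / n) + 1 ≤ x then (n : ℤ) else 0) = 1 + (n : ℤ) * c := by
          split_ifs with h2
          · exact ⟨x / n + 1, by ring⟩
          · exact ⟨x / n, by ring⟩
        obtain ⟨c, hc⟩ := h3
        rw [hc, Int.gcd_comm]
        exact Int.isCoprime_iff_gcd_eq_one.1 ⟨-c, 1, by ring⟩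
    exact Nat.sInf_mem hne
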